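import Mathlib

/-!
# Ruzsa's digit construction for sets without `k`-th power differences

Given a squarefree modulus `m` and a set `R` of residues no two of which differ by a
`k`-th power residue modulo `m`, the integers whose base-`m` digits in positions divisible by `k`
lie in `R` contain no two elements differing by a positive perfect `k`-th power.
-/

namespace Vale.Agent.Lib.P042

open Finset

/-- Level `t` of the digit construction: numbers `r + m * (s + m^(k-1) * a)` with `r ∈ R`,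
`s < m^(k-1)` and `a` in level `t - 1`. -/
def digitSet (k m : ℕ) (R : Finset ℕ) : ℕ → Finset ℕ
  | 0 => {0}
  | t + 1 => ((R ×ˢ Finset.range (m ^ (k - 1))) ×ˢ digitSet k m R t).image
      (fun x => x.1.1 + m * (x.1.2 + m ^ (k - 1) * x.2))

theorem pair_inj {b r r' w w' : ℕ} (hr : r < b) (hr' : r' < b)
    (h : r + b * w = r' + b * w') : r = r' ∧ w = w' := by
  have hb : 0 < b := lt_of_le_of_lt (Nat.zero_le _) hr
  have h1 : (r + b * w) % b = r := by
    rw [Nat.add_mul_mod_self_left, Nat.mod_eq_of_lt hr]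
  have h2 : (r' + b * w') % b = r' := by
    rw [Nat.add_mul_mod_self_left, Nat.mod_eq_of_lt hr']
  have h3 : (r + b * w) / b = w := by
    rw [Nat.add_mul_div_left _ _ hb, Nat.div_eq_of_lt hr, Nat.zero_add]
  have h4 : (r' + b * w') / b = w' := by
    rw [Nat.add_mul_div_left _ _ hb, Nat.div_eq_of_lt hr', Nat.zero_add]
  constructor
  · rw [← h1, ← h2, h]
  · rw [← h3, ← h4, h]

theorem mem_digitSet_succ {k m : ℕ} {R : Finset ℕ} {t x : ℕ} :
    x ∈ digitSet k m R (t + 1) ↔ ∃ r ∈ R, ∃ s < m ^ (k - 1), ∃ a ∈ digitSet k m R t,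
      x = r + m * (s + m ^ (k - 1) * a) := by
  simp only [digitSet, Finset.mem_image, Finset.mem_product, Finset.mem_range, Prod.exists]
  constructor
  · rintro ⟨r, s, a, ⟨⟨hr, hs⟩, ha⟩, rfl⟩
    exact ⟨r, hr, s, hs, a, ha, rfl⟩
  · rintro ⟨r, hr, s, hs, a, ha, rfl⟩
    exact ⟨r, s, a, ⟨⟨hr, hs⟩, ha⟩, rfl⟩

theorem card_digitSet {k m : ℕ} {R : Finset ℕ} (hRm : ∀ r ∈ R, r < m) (t : ℕ) :
    (digitSet k m R t).card = (R.card * m ^ (k - 1)) ^ t := by
  induction t with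
  | zero => simp [digitSet]
  | succ t ih =>
    rw [digitSet, Finset.card_image_of_injOn, Finset.card_product, Finset.card_product,
      Finset.card_range, ih, pow_succ]
    · ring
    · rintro ⟨⟨r, s⟩, a⟩ hx ⟨⟨r', s'⟩, a'⟩ hy h
      simp only [Finset.coe_product, Set.mem_prod, Finset.mem_coe, Finset.mem_range] at hx hy
      simp only at h
      obtain ⟨h1, h2⟩ := pair_inj (hRm r hx.1.1) (hRm r' hy.1.1) h
      obtain ⟨h3, h4⟩ := pair_inj hx.1.2 hy.1.2 h2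
      subst h1 h3 h4
      rfl

theorem lt_of_mem_digitSet {k m : ℕ} {R : Finset ℕ} (hk : 1 ≤ k) (hRm : ∀ r ∈ R, r < m) (t : ℕ) :
    ∀ x ∈ digitSet k m R t, x < (m ^ k) ^ t := by
  induction t with
  | zero => intro x hx; simp [digitSet] at hx; simp [hx]
  | succ t ih =>
    intro x hx
    obtain ⟨r, hr, s, hs, a, ha, rfl⟩ := mem_digitSet_succ.1 hx
    have h1 : a + 1 ≤ (m ^ k) ^ t := ih a ha
    have h2 : s + m ^ (k - 1) * a + 1 ≤ m ^ (k - 1) * (m ^ k) ^ t := by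
      calc s + m ^ (k - 1) * a + 1 ≤ m ^ (k - 1) * (a + 1) := by
            have : s + 1 ≤ m ^ (k - 1) := hs
            nlinarith
        _ ≤ m ^ (k - 1) * (m ^ k) ^ t := Nat.mul_le_mul_left _ h1
    have h3 : r + 1 ≤ m := hRm r hr
    have hmk : m ^ k = m * m ^ (k - 1) := by
      rw [← pow_succ']
      congr 1
      omega
    calc r + m * (s + m ^ (k - 1) * a) < m * (s + m ^ (k - 1) * a + 1) := by nlinarith
      _ ≤ m * (m ^ (k - 1) * (m ^ k) ^ t) := Nat.mul_le_mul_left _ h2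
      _ = (m ^ k) ^ (t + 1) := by rw [pow_succ, hmk]; ring

/-- No two elements of the digit set differ by a positive perfect `k`-th power. -/
theorem no_pow_diff {k m : ℕ} {R : Finset ℕ} (hk : 1 ≤ k) (hm : Squarefree m)
    (hRm : ∀ r ∈ R, r < m)
    (hR : ∀ r ∈ R, ∀ r' ∈ R, r ≠ r' → ∀ n : ℕ, (r' + n ^ k) % m ≠ r % m) (t : ℕ) :
    ∀ x ∈ digitSet k m R t, ∀ y ∈ digitSet k m R t, ∀ n : ℕ, x = y + n ^ k → n = 0 := by
  have hk0 : k ≠ 0 := by omega
  have hmk : m ^ k = m * m ^ (k - 1) := by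
    rw [← pow_succ']
    congr 1
    omega
  induction t with
  | zero =>
    intro x hx y hy n h
    simp only [digitSet, Finset.mem_singleton] at hx hy
    subst hx hy
    have : n ^ k = 0 := by omega
    exact (pow_eq_zero_iff hk0).1 this
  | succ t ih =>
    intro x hx y hy n h
    obtain ⟨r, hr, s, hs, a, ha, rfl⟩ := mem_digitSet_succ.1 hx
    obtain ⟨r', hr', s', hs', a', ha', rfl⟩ := mem_digitSet_succ.1 hy
    have hm0 : 0 < m := lt_of_le_of_lt (Nat.zero_le _) (hRm r hr)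
    by_cases hrr : r = r'
    · subst hrr
      have h1 : m * (s + m ^ (k - 1) * a) = m * (s' + m ^ (k - 1) * a') + n ^ k := by omega
      have h2 : m ∣ n ^ k := by
        have h3 : m ∣ m * (s' + m ^ (k - 1) * a') + n ^ k := h1 ▸ Dvd.intro _ rfl
        exact (Nat.dvd_add_right (Dvd.intro _ rfl)).1 h3
      have h4 : m ∣ n := (hm.dvd_pow_iff_dvd hk0).1 h2
      obtain ⟨n', rfl⟩ := h4
      have h5 : (m * n') ^ k = m * (m ^ (k - 1) * n' ^ k) := by
        rw [mul_pow, hmk]; ring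
      rw [h5, ← Nat.mul_add] at h1
      have h6 := Nat.eq_of_mul_eq_mul_left hm0 h1
      have h7 : s + m ^ (k - 1) * a = s' + m ^ (k - 1) * (a' + n' ^ k) := by
        rw [h6]; ring
      obtain ⟨_, h8⟩ := pair_inj hs hs' h7
      have := ih a ha a' ha' n' h8
      simp [this]
    · exfalso
      apply hR r hr r' hr' hrr n
      have : r' + n ^ k + m * (s' + m ^ (k - 1) * a') = r + m * (s + m ^ (k - 1) * a) := by
        omega
      calc (r' + n ^ k) % m = (r' + n ^ k + m * (s' + m ^ (k - 1) * a')) % m := by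
            rw [Nat.add_mul_mod_self_left]
        _ = (r + m * (s + m ^ (k - 1) * a)) % m := by rw [this]
        _ = r % m := by rw [Nat.add_mul_mod_self_left]

/-- Checking the residue condition one prime (or any divisor) at a time. -/
theorem residue_condition_of_divisors {k m : ℕ} {R : Finset ℕ}
    (h : ∀ r ∈ R, ∀ r' ∈ R, r ≠ r' → ∃ p, p ∣ m ∧ 0 < p ∧ ∀ n < p, (r' + n ^ k) % p ≠ r % p) :
    ∀ r ∈ R, ∀ r' ∈ R, r ≠ r' → ∀ n : ℕ, (r' + n ^ k) % m ≠ r % m := by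
  intro r hr r' hr' hrr n hn
  obtain ⟨p, hpm, hp0, hp⟩ := h r hr r' hr' hrr
  apply hp (n % p) (Nat.mod_lt _ hp0)
  have h1 : (r' + n ^ k) % p = r % p := by
    have := congrArg (· % p) hn
    simpa [Nat.mod_mod_of_dvd _ hpm] using this
  rw [← h1, Nat.add_mod, Nat.pow_mod, Nat.mod_mod, ← Nat.pow_mod, ← Nat.add_mod]

theorem rpow_le_of_pow_le {x y : ℝ} (hx : 0 ≤ x) (hy : 0 ≤ y) {a b : ℕ} (hb : 0 < b)
    (h : x ^ a ≤ y ^ b) : x ^ ((a : ℝ) / b) ≤ y := by
  have h1 : x ^ ((a : ℝ) / b) = (x ^ a) ^ ((b : ℝ)⁻¹) := by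
    rw [div_eq_mul_inv, Real.rpow_mul hx, Real.rpow_natCast]
  rw [h1]
  calc (x ^ a) ^ ((b : ℝ)⁻¹) ≤ (y ^ b) ^ ((b : ℝ)⁻¹) :=
        Real.rpow_le_rpow (pow_nonneg hx _) h (by positivity)
    _ = y := Real.pow_rpow_inv_natCast hy hb.ne'

/-- **Ruzsa's construction**, quantitative form. -/
theorem ruzsa_lower_bound {k m : ℕ} {R : Finset ℕ} (hk : 1 ≤ k) (hm : Squarefree m) (hm1 : 1 < m)
    (hRm : ∀ r ∈ R, r < m)
    (hR : ∀ r ∈ R, ∀ r' ∈ R, r ≠ r' → ∀ n : ℕ, (r' + n ^ k) % m ≠ r % m)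
    {γ : ℝ} (hγ0 : 0 ≤ γ) (hγ : ((m : ℝ) ^ k) ^ γ ≤ (R.card : ℝ) * (m : ℝ) ^ (k - 1))
    (N : ℕ) (hN : 1 ≤ N) :
    ∃ A : Finset ℕ, A ⊆ Finset.Icc 1 N ∧
      (∀ a ∈ A, ∀ b ∈ A, ∀ n : ℕ, 1 ≤ n → (a : ℤ) - (b : ℤ) ≠ (n : ℤ) ^ k) ∧
      (N : ℝ) ^ γ ≤ ((R.card : ℝ) * (m : ℝ) ^ (k - 1)) * (A.card : ℝ) := by
  have hk0 : k ≠ 0 := by omega
  have hb : 1 < m ^ k := Nat.one_lt_pow hk0 hm1
  set t := Nat.log (m ^ k) N with ht
  have h1 : (m ^ k) ^ t ≤ N := Nat.pow_log_le_self _ (by omega)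
  have h2 : N < (m ^ k) ^ (t + 1) := Nat.lt_pow_succ_log_self hb N
  refine ⟨(digitSet k m R t).image (· + 1), ?_, ?_, ?_⟩
  · intro x hx
    obtain ⟨y, hy, rfl⟩ := Finset.mem_image.1 hx
    have := lt_of_mem_digitSet hk hRm t y hy
    simp only [Finset.mem_Icc]
    omega
  · intro a ha b hb' n hn h
    obtain ⟨x, hx, rfl⟩ := Finset.mem_image.1 ha
    obtain ⟨y, hy, rfl⟩ := Finset.mem_image.1 hb'
    have h3 : x = y + n ^ k := by
      have : (x : ℤ) = (y : ℤ) + (n : ℤ) ^ k := by push_cast at h; linarith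
      exact_mod_cast this
    have := no_pow_diff hk hm hRm hR t x hx y hy n h3
    omega
  · rw [Finset.card_image_of_injective _ (add_left_injective 1), card_digitSet hRm]
    have h3 : (N : ℝ) ≤ ((m : ℝ) ^ k) ^ (t + 1) := by exact_mod_cast h2.le
    have hmk0 : (0 : ℝ) ≤ (m : ℝ) ^ k := by positivity
    calc (N : ℝ) ^ γ ≤ (((m : ℝ) ^ k) ^ (t + 1)) ^ γ :=
          Real.rpow_le_rpow (by positivity) h3 hγ0
      _ = (((m : ℝ) ^ k) ^ γ) ^ (t + 1) := by
          rw [← Real.rpow_natCast, ← Real.rpow_mul hmk0, mul_comm, Real.rpow_mul hmk0,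
            Real.rpow_natCast]
      _ ≤ ((R.card : ℝ) * (m : ℝ) ^ (k - 1)) ^ (t + 1) :=
          pow_le_pow_left₀ (by positivity) hγ _
      _ = ((R.card : ℝ) * (m : ℝ) ^ (k - 1)) * (((R.card * m ^ (k - 1)) ^ t : ℕ) : ℝ) := by
          push_cast
          ring

end Vale.Agent.Lib.P042
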